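/-
Row 152, module RE (helper531): the computability glue.
(RE1) normal form of r.e. predicates: `p a ↔ ∃ k, c a k = true` with `c` primitive recursive.
(RE2) GRAMMAR THEOREM: the languages generated by a finite table of rules
        i ← a · b   |   i ← a   |   i ← th(a)   |   i ← base
      over an r.e. family of base languages (with a parameter) are r.e., uniformly in the parameter.
-/
import Claimed.Agent.R152.A.Comp

set_option autoImplicit false

namespace Claimed.Agent.R152.RE

open Claimed.Agent.R152.A (rePred_of_exists)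
open Nat.Partrec (Code)

/-- (RE1) Every r.e. predicate has primitive recursive certificates. -/
theorem exists_chk_of_rePred {α : Type*} [Primcodable α] {p : α → Prop} (hp : REPred p) :
    ∃ c : α → ℕ → Bool, Primrec₂ c ∧ ∀ a, p a ↔ ∃ k, c a k = true := by
  obtain ⟨cd, hcd⟩ := Code.exists_code.1 hp
  refine ⟨fun a k => (Code.evaln k cd (Encodable.encode a)).isSome, ?_, ?_⟩
  · have h1 : Primrec fun x : α × ℕ => Code.evaln x.2 cd (Encodable.encode x.1) :=
      Code.primrec_evaln.comp (Primrec.pair (Primrec.pair Primrec.snd (Primrec.const cd))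
        (Primrec.encode.comp Primrec.fst))
    exact Primrec.option_isSome.comp h1
  · intro a
    have h2 : (Code.eval cd (Encodable.encode a)).Dom ↔ p a := by
      rw [hcd]
      simp [Part.assert]
    rw [← h2]
    constructor
    · intro hd
      obtain ⟨k, hk⟩ := Code.evaln_complete.1 (Part.get_mem hd)
      exact ⟨k, by simp [Option.mem_def.1 hk]⟩
    · rintro ⟨k, hk⟩
      obtain ⟨x, hx⟩ := Option.isSome_iff_exists.1 hk
      exact (Part.dom_iff_mem.2 ⟨x, Code.evaln_sound (Option.mem_def.2 hx)⟩)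

/-- A grammar: finite tables of rules over a type `σ` of sorts (any `Primcodable` type, e.g. `ℕ` or
`ℕ × Option (Fin n × Bool)`), and one substitution `th`. -/
structure Gram (σ α : Type*) where
  /-- `(i,a,b)`: `i ← a · b` -/
  cat : List (σ × σ × σ)
  /-- `(i,a)`: `i ← a` -/
  sub : List (σ × σ)
  /-- `(i,a)`: `i ← th(a)` -/
  mor : List (σ × σ)
  /-- the substitution -/
  th : α → List α

/-- Derivability of the word `w` in the sort `i`, with parameter `p`, over the base languages `B`. -/
inductive Der {σ α π : Type*} (G : Gram σ α) (B : π → σ → List α → Prop) (p : π) :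
    σ → List α → Prop
  | base {i : σ} {w : List α} (h : B p i w) : Der G B p i w
  | cat {i a b : σ} {u v : List α} (h : (i, a, b) ∈ G.cat) (hu : Der G B p a u)
      (hv : Der G B p b v) : Der G B p i (u ++ v)
  | sub {i a : σ} {u : List α} (h : (i, a) ∈ G.sub) (hu : Der G B p a u) : Der G B p i u
  | mor {i a : σ} {u : List α} (h : (i, a) ∈ G.mor) (hu : Der G B p a u) :
      Der G B p i (u.flatMap G.th)

section Cert

variable {σ α π : Type*}

/-- A line of a certificate: conclusion, tag of the rule, two premises, witness for `base`. -/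
abbrev Line (σ α : Type*) := (σ × List α) × ℕ × (σ × List α) × (σ × List α) × ℕ

/-- The line `l` is justified by the already derived judgments `T`. -/
def Ok (G : Gram σ α) (c : π × σ × List α → ℕ → Bool) (p : π) (l : Line σ α)
    (T : List (σ × List α)) : Prop :=
  (l.2.1 = 0 ∧ c (p, l.1) l.2.2.2.2 = true) ∨
  (l.2.1 = 1 ∧ (l.1.1, l.2.2.1.1, l.2.2.2.1.1) ∈ G.cat ∧ l.2.2.1 ∈ T ∧ l.2.2.2.1 ∈ T ∧
    l.1.2 = l.2.2.1.2 ++ l.2.2.2.1.2) ∨
  (l.2.1 = 2 ∧ (l.1.1, l.2.2.1.1) ∈ G.sub ∧ l.2.2.1 ∈ T ∧ l.1.2 = l.2.2.1.2) ∨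
  (l.2.1 = 3 ∧ (l.1.1, l.2.2.1.1) ∈ G.mor ∧ l.2.2.1 ∈ T ∧ l.1.2 = l.2.2.1.2.flatMap G.th)

/-- Validity of a certificate (the newest line is the head). -/
def Valid (G : Gram σ α) (c : π × σ × List α → ℕ → Bool) (p : π) : List (Line σ α) → Prop
  | [] => True
  | l :: t => Ok G c p l (t.map Prod.fst) ∧ Valid G c p t

theorem Ok.mono {G : Gram σ α} {c : π × σ × List α → ℕ → Bool} {p : π} {l : Line σ α}
    {T T' : List (σ × List α)} (h : Ok G c p l T) (hT : T ⊆ T') : Ok G c p l T' := by
  rcases h with h | ⟨h1, h2, h3, h4, h5⟩ | ⟨h1, h2, h3, h4⟩ | ⟨h1, h2, h3, h4⟩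
  · exact Or.inl h
  · exact Or.inr (Or.inl ⟨h1, h2, hT h3, hT h4, h5⟩)
  · exact Or.inr (Or.inr (Or.inl ⟨h1, h2, hT h3, h4⟩))
  · exact Or.inr (Or.inr (Or.inr ⟨h1, h2, hT h3, h4⟩))

theorem Valid.append {G : Gram σ α} {c : π × σ × List α → ℕ → Bool} {p : π} :
    ∀ {s t : List (Line σ α)}, Valid G c p s → Valid G c p t → Valid G c p (s ++ t)
  | [], _, _, ht => ht
  | l :: s, t, hs, ht => by
    refine ⟨hs.1.mono ?_, Valid.append hs.2 ht⟩
    show List.map Prod.fst s ⊆ List.map Prod.fst (s ++ t)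
    rw [List.map_append]
    exact List.subset_append_left _ _

theorem der_of_valid {G : Gram σ α} {B : π → σ → List α → Prop} {c : π × σ × List α → ℕ → Bool}
    (hc : ∀ x : π × σ × List α, B x.1 x.2.1 x.2.2 ↔ ∃ k, c x k = true) {p : π} :
    ∀ {s : List (Line σ α)}, Valid G c p s → ∀ x ∈ s.map Prod.fst, Der G B p x.1 x.2
  | [], _, x, hx => by simp at hx
  | l :: s, hs, x, hx => by
    have ih := der_of_valid hc hs.2
    rw [List.map_cons, List.mem_cons] at hx
    rcases hx with rfl | hx
    · rcases hs.1 with ⟨-, h⟩ | ⟨-, h2, h3, h4, h5⟩ | ⟨-, h2, h3, h4⟩ | ⟨-, h2, h3, h4⟩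
      · exact Der.base ((hc (p, l.1)).2 ⟨_, h⟩)
      · rw [h5]; exact Der.cat h2 (ih _ h3) (ih _ h4)
      · rw [h4]; exact Der.sub h2 (ih _ h3)
      · rw [h4]; exact Der.mor h2 (ih _ h3)
    · exact ih x hx

theorem exists_valid_of_der {G : Gram σ α} {B : π → σ → List α → Prop}
    {c : π × σ × List α → ℕ → Bool}
    (hc : ∀ x : π × σ × List α, B x.1 x.2.1 x.2.2 ↔ ∃ k, c x k = true) {p : π} {i : σ}
    {w : List α} (h : Der G B p i w) :
    ∃ s : List (Line σ α), Valid G c p s ∧ (i, w) ∈ s.map Prod.fst := by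
  induction h with
  | @base i w h =>
    obtain ⟨k, hk⟩ := (hc (p, i, w)).1 h
    exact ⟨[((i, w), 0, (i, []), (i, []), k)], ⟨Or.inl ⟨rfl, hk⟩, trivial⟩, by simp⟩
  | @cat i a b u v h _ _ ihu ihv =>
    obtain ⟨s, hs, hsu⟩ := ihu
    obtain ⟨t, ht, htv⟩ := ihv
    refine ⟨((i, u ++ v), 1, (a, u), (b, v), 0) :: (s ++ t), ⟨Or.inr (Or.inl ⟨rfl, h, ?_, ?_, rfl⟩),
      hs.append ht⟩, by simp⟩
    · rw [List.map_append]; exact List.mem_append_left _ hsu
    · rw [List.map_append]; exact List.mem_append_right _ htv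
  | @sub i a u h _ ihu =>
    obtain ⟨s, hs, hsu⟩ := ihu
    exact ⟨((i, u), 2, (a, u), (a, []), 0) :: s,
      ⟨Or.inr (Or.inr (Or.inl ⟨rfl, h, hsu, rfl⟩)), hs⟩, by simp⟩
  | @mor i a u h _ ihu =>
    obtain ⟨s, hs, hsu⟩ := ihu
    exact ⟨((i, u.flatMap G.th), 3, (a, u), (a, []), 0) :: s,
      ⟨Or.inr (Or.inr (Or.inr ⟨rfl, h, hsu, rfl⟩)), hs⟩, by simp⟩

end Cert

section Prim

variable {σ α π : Type*} [Primcodable σ] [Primcodable α] [Primcodable π]

theorem primrecRel_mem {β : Type*} [Primcodable β] :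
    PrimrecRel fun (x : β) (T : List β) => x ∈ T := by
  classical
  have h : PrimrecRel fun (T : List β) (x : β) => ∃ a ∈ T, a = x :=
    PrimrecRel.exists_mem_list Primrec.eq
  exact (h.comp Primrec.snd Primrec.fst).of_eq (fun x => by simp)

theorem primrecPred_ok (G : Gram σ α) (hth : Primrec G.th) {c : π × σ × List α → ℕ → Bool}
    (hc : Primrec₂ c) :
    PrimrecPred fun x : π × Line σ α × List (σ × List α) => Ok G c x.1 x.2.1 x.2.2 := by
  classical
  have hp : Primrec fun x : π × Line σ α × List (σ × List α) => x.1 := Primrec.fst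
  have hl : Primrec fun x : π × Line σ α × List (σ × List α) => x.2.1 :=
    Primrec.fst.comp Primrec.snd
  have hT : Primrec fun x : π × Line σ α × List (σ × List α) => x.2.2 :=
    Primrec.snd.comp Primrec.snd
  have hcon : Primrec fun x : π × Line σ α × List (σ × List α) => x.2.1.1 := Primrec.fst.comp hl
  have htag : Primrec fun x : π × Line σ α × List (σ × List α) => x.2.1.2.1 :=
    Primrec.fst.comp (Primrec.snd.comp hl)
  have hp1 : Primrec fun x : π × Line σ α × List (σ × List α) => x.2.1.2.2.1 :=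
    Primrec.fst.comp (Primrec.snd.comp (Primrec.snd.comp hl))
  have hp2 : Primrec fun x : π × Line σ α × List (σ × List α) => x.2.1.2.2.2.1 :=
    Primrec.fst.comp (Primrec.snd.comp (Primrec.snd.comp (Primrec.snd.comp hl)))
  have hwit : Primrec fun x : π × Line σ α × List (σ × List α) => x.2.1.2.2.2.2 :=
    Primrec.snd.comp (Primrec.snd.comp (Primrec.snd.comp (Primrec.snd.comp hl)))
  have tag (n : ℕ) : PrimrecPred fun x : π × Line σ α × List (σ × List α) => x.2.1.2.1 = n :=
    Primrec.eq.comp htag (Primrec.const n)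
  have m1 : PrimrecPred fun x : π × Line σ α × List (σ × List α) => x.2.1.2.2.1 ∈ x.2.2 :=
    primrecRel_mem.comp hp1 hT
  have m2 : PrimrecPred fun x : π × Line σ α × List (σ × List α) => x.2.1.2.2.2.1 ∈ x.2.2 :=
    primrecRel_mem.comp hp2 hT
  unfold Ok
  refine PrimrecPred.or ((tag 0).and ?_) (PrimrecPred.or ((tag 1).and (PrimrecPred.and ?_
    (m1.and (m2.and ?_)))) (PrimrecPred.or ((tag 2).and (PrimrecPred.and ?_ (m1.and ?_)))
    ((tag 3).and (PrimrecPred.and ?_ (m1.and ?_)))))
  · exact Primrec.eq.comp (hc.comp (Primrec.pair hp hcon) hwit) (Primrec.const true)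
  · exact primrecRel_mem.comp (Primrec.pair (Primrec.fst.comp hcon)
      (Primrec.pair (Primrec.fst.comp hp1) (Primrec.fst.comp hp2))) (Primrec.const G.cat)
  · exact Primrec.eq.comp (Primrec.snd.comp hcon)
      (Primrec.list_append.comp (Primrec.snd.comp hp1) (Primrec.snd.comp hp2))
  · exact primrecRel_mem.comp (Primrec.pair (Primrec.fst.comp hcon) (Primrec.fst.comp hp1))
      (Primrec.const G.sub)
  · exact Primrec.eq.comp (Primrec.snd.comp hcon) (Primrec.snd.comp hp1)
  · exact primrecRel_mem.comp (Primrec.pair (Primrec.fst.comp hcon) (Primrec.fst.comp hp1))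
      (Primrec.const G.mor)
  · exact Primrec.eq.comp (Primrec.snd.comp hcon)
      (Primrec.list_flatMap (Primrec.snd.comp hp1) (hth.comp Primrec.snd))

theorem primrecPred_valid (G : Gram σ α) (hth : Primrec G.th) {c : π × σ × List α → ℕ → Bool}
    (hc : Primrec₂ c) :
    PrimrecPred fun x : π × List (Line σ α) => Valid G c x.1 x.2 := by
  classical
  have hok := (primrecPred_ok G hth hc).decide
  have hstep : Primrec₂ fun (x : π × List (Line σ α)) (y : Line σ α × List (Line σ α) × Bool) =>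
      (decide (Ok G c x.1 y.1 (y.2.1.map Prod.fst)) && y.2.2) := by
    refine Primrec.and.comp (hok.comp (Primrec.pair (Primrec.fst.comp Primrec.fst)
      (Primrec.pair (Primrec.fst.comp Primrec.snd) ?_))) (Primrec.snd.comp (Primrec.snd.comp Primrec.snd))
    exact Primrec.list_map (Primrec.fst.comp (Primrec.snd.comp Primrec.snd))
      (Primrec.fst.comp Primrec.snd)
  have hrec := Primrec.list_rec (f := fun x : π × List (Line σ α) => x.2) (g := fun _ => true)
    Primrec.snd (Primrec.const true) hstep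
  refine ⟨inferInstance, hrec.of_eq ?_⟩
  rintro ⟨p, s⟩
  have key : ∀ s : List (Line σ α), (List.rec true (fun b l IH =>
      decide (Ok G c p b (List.map Prod.fst l)) && IH) s : Bool) = true ↔ Valid G c p s := by
    intro s
    induction s with
    | nil => simp [Valid]
    | cons l t ih =>
      simp only [Valid, Bool.and_eq_true, decide_eq_true_eq]
      rw [ih]
  have h2 := key s
  by_cases hv : Valid G c p s
  · rw [decide_eq_true hv]; exact h2.2 hv
  · rw [decide_eq_false hv]
    exact Bool.eq_false_iff.2 (fun h => hv (h2.1 h))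

/-- (RE2) THE GRAMMAR THEOREM. -/
theorem der_re (G : Gram σ α) (hth : Primrec G.th) {B : π → σ → List α → Prop}
    (hB : REPred fun x : π × σ × List α => B x.1 x.2.1 x.2.2) :
    REPred fun x : π × σ × List α => Der G B x.1 x.2.1 x.2.2 := by
  classical
  obtain ⟨c, hc, hcB⟩ := exists_chk_of_rePred hB
  have h1 : PrimrecPred fun y : (π × σ × List α) × List (Line σ α) =>
      Valid G c y.1.1 y.2 ∧ y.1.2 ∈ y.2.map Prod.fst := by
    refine PrimrecPred.and ((primrecPred_valid G hth hc).comp
      (Primrec.pair (Primrec.fst.comp Primrec.fst) Primrec.snd)) ?_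
    exact primrecRel_mem.comp (Primrec.snd.comp Primrec.fst)
      (Primrec.list_map Primrec.snd (Primrec.fst.comp Primrec.snd))
  refine rePred_of_exists (fun x s => decide (Valid G c x.1 s ∧ x.2 ∈ s.map Prod.fst))
    h1.decide.to_comp ?_
  rintro ⟨p, i, w⟩
  simp only [decide_eq_true_eq]
  constructor
  · exact exists_valid_of_der hcB
  · rintro ⟨s, hs, hmem⟩
    exact der_of_valid hcB hs _ hmem

end Prim

end Claimed.Agent.R152.RE
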