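/-
Row 152, module RE (helper531): closure properties of r.e. predicates and r.e. languages (RE3).
Everything follows from the normal form (RE1) and `rePred_of_exists`.
-/
import Claimed.Agent.R152.RE.Gram

set_option autoImplicit false

namespace Claimed.Agent.R152.RE

open Claimed.Agent.R152.A (rePred_of_exists)

variable {σ α β γ π : Type*} [Primcodable σ] [Primcodable α] [Primcodable β] [Primcodable γ]
  [Primcodable π]

theorem re_comp {p : β → Prop} (hp : REPred p) {f : α → β} (hf : Computable f) :
    REPred fun a => p (f a) := by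
  obtain ⟨c, hc, h⟩ := exists_chk_of_rePred hp
  exact rePred_of_exists (fun a k => c (f a) k)
    (hc.to_comp.comp (hf.comp Computable.fst) Computable.snd) (fun a => h (f a))

theorem re_and {p q : α → Prop} (hp : REPred p) (hq : REPred q) : REPred fun a => p a ∧ q a := by
  obtain ⟨c, hc, h⟩ := exists_chk_of_rePred hp
  obtain ⟨d, hd, h'⟩ := exists_chk_of_rePred hq
  refine rePred_of_exists (fun a (k : ℕ × ℕ) => c a k.1 && d a k.2) ?_ ?_
  · exact (Primrec.and.comp (hc.comp Primrec.fst (Primrec.fst.comp Primrec.snd))
      (hd.comp Primrec.fst (Primrec.snd.comp Primrec.snd))).to_comp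
  · intro a
    rw [h, h']
    constructor
    · rintro ⟨⟨k, hk⟩, ⟨l, hl⟩⟩
      exact ⟨(k, l), by simp [hk, hl]⟩
    · rintro ⟨⟨k, l⟩, hkl⟩
      simp only [Bool.and_eq_true] at hkl
      exact ⟨⟨k, hkl.1⟩, ⟨l, hkl.2⟩⟩

theorem re_or {p q : α → Prop} (hp : REPred p) (hq : REPred q) : REPred fun a => p a ∨ q a := by
  obtain ⟨c, hc, h⟩ := exists_chk_of_rePred hp
  obtain ⟨d, hd, h'⟩ := exists_chk_of_rePred hq
  refine rePred_of_exists (fun a (k : ℕ) => c a k || d a k) ?_ ?_
  · exact (Primrec.or.comp (hc.comp Primrec.fst Primrec.snd)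
      (hd.comp Primrec.fst Primrec.snd)).to_comp
  · intro a
    rw [h, h']
    constructor
    · rintro (⟨k, hk⟩ | ⟨k, hk⟩)
      · exact ⟨k, by simp [hk]⟩
      · exact ⟨k, by simp [hk]⟩
    · rintro ⟨k, hk⟩
      simp only [Bool.or_eq_true] at hk
      exact hk.elim (fun h => Or.inl ⟨k, h⟩) (fun h => Or.inr ⟨k, h⟩)

theorem re_exists {p : α × β → Prop} (hp : REPred p) : REPred fun a => ∃ b, p (a, b) := by
  obtain ⟨c, hc, h⟩ := exists_chk_of_rePred hp
  refine rePred_of_exists (fun a (k : β × ℕ) => c (a, k.1) k.2) ?_ ?_
  · exact (hc.comp (Primrec.pair Primrec.fst (Primrec.fst.comp Primrec.snd))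
      (Primrec.snd.comp Primrec.snd)).to_comp
  · intro a
    constructor
    · rintro ⟨b, hb⟩
      obtain ⟨k, hk⟩ := (h (a, b)).1 hb
      exact ⟨(b, k), hk⟩
    · rintro ⟨⟨b, k⟩, hk⟩
      exact ⟨b, (h (a, b)).2 ⟨k, hk⟩⟩

theorem re_false : REPred fun _ : α => False :=
  rePred_of_exists (fun _ (_ : ℕ) => false) (Computable.const false) (fun _ => by simp)

theorem re_true : REPred fun _ : α => True :=
  rePred_of_exists (fun _ (_ : ℕ) => true) (Computable.const true) (fun _ => by simp)

theorem re_of_primrecPred {p : α → Prop} (hp : PrimrecPred p) : REPred p := by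
  obtain ⟨_, h⟩ := hp
  exact rePred_of_exists (fun a (_ : ℕ) => decide (p a)) (h.comp Primrec.fst).to_comp
    (fun a => by simp)

theorem re_eq {f g : α → β} (hf : Computable f) (hg : Computable g) :
    REPred fun a => f a = g a := by
  classical
  have h : REPred fun x : β × β => x.1 = x.2 := re_of_primrecPred Primrec.eq
  exact re_comp h (hf.pair hg)

/-- An r.e. language with a parameter. -/
def RELang (Λ : π → List α → Prop) : Prop := REPred fun x : π × List α => Λ x.1 x.2

namespace RELang

theorem of_iff {Λ Λ' : π → List α → Prop} (h : RELang Λ) (H : ∀ p w, Λ p w ↔ Λ' p w) :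
    RELang Λ' :=
  REPred.of_eq h (fun x => H x.1 x.2)

theorem union {Λ Λ' : π → List α → Prop} (h : RELang Λ) (h' : RELang Λ') :
    RELang fun p w => Λ p w ∨ Λ' p w := re_or h h'

theorem inter {Λ Λ' : π → List α → Prop} (h : RELang Λ) (h' : RELang Λ') :
    RELang fun p w => Λ p w ∧ Λ' p w := re_and h h'

theorem univ : RELang fun (_ : π) (_ : List α) => True := re_true

theorem empty : RELang fun (_ : π) (_ : List α) => False := re_false

/-- The language `{g p}`. -/
theorem singleton {g : π → List α} (hg : Computable g) : RELang fun p w => w = g p :=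
  re_eq Computable.snd (hg.comp Computable.fst)

/-- Concatenation. -/
theorem concat {Λ Λ' : π → List α → Prop} (h : RELang Λ) (h' : RELang Λ') :
    RELang fun p w => ∃ u v, Λ p u ∧ Λ' p v ∧ w = u ++ v := by
  have h1 : REPred fun y : (π × List α) × (List α × List α) =>
      Λ y.1.1 y.2.1 ∧ Λ' y.1.1 y.2.2 ∧ y.1.2 = y.2.1 ++ y.2.2 := by
    refine re_and (re_comp h ((Computable.fst.comp Computable.fst).pair
      (Computable.fst.comp Computable.snd))) (re_and (re_comp h'
      ((Computable.fst.comp Computable.fst).pair (Computable.snd.comp Computable.snd))) ?_)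
    exact re_eq (Computable.snd.comp Computable.fst)
      (Primrec.list_append.to_comp.comp (Computable.fst.comp Computable.snd)
        (Computable.snd.comp Computable.snd))
  exact (re_exists h1).of_eq (fun x => by simp)

/-- Image under a substitution (which may depend on the parameter). -/
theorem image {Λ : π → List α → Prop} (h : RELang Λ) {f : π → α → List β} (hf : Primrec₂ f) :
    RELang fun p w => ∃ u, Λ p u ∧ w = u.flatMap (f p) := by
  have h1 : REPred fun y : (π × List β) × List α =>
      Λ y.1.1 y.2 ∧ y.1.2 = y.2.flatMap (f y.1.1) := by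
    refine re_and (re_comp h ((Computable.fst.comp Computable.fst).pair Computable.snd)) ?_
    refine re_eq (Computable.snd.comp Computable.fst) (Primrec.to_comp ?_)
    exact Primrec.list_flatMap Primrec.snd
      (hf.comp (Primrec.fst.comp (Primrec.fst.comp Primrec.fst)) Primrec.snd)
  exact re_exists h1

/-- Image under an arbitrary computable map of words. -/
theorem image' {Λ : π → List α → Prop} (h : RELang Λ) {f : π → List α → List β}
    (hf : Computable₂ f) : RELang fun p w => ∃ u, Λ p u ∧ w = f p u := by
  have h1 : REPred fun y : (π × List β) × List α => Λ y.1.1 y.2 ∧ y.1.2 = f y.1.1 y.2 := by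
    refine re_and (re_comp h ((Computable.fst.comp Computable.fst).pair Computable.snd)) ?_
    exact re_eq (Computable.snd.comp Computable.fst)
      (hf.comp (Computable.fst.comp Computable.fst) Computable.snd)
  exact re_exists h1

/-- Change of parameter. -/
theorem reparam {Λ : π → List α → Prop} (h : RELang Λ) {g : γ → π} (hg : Computable g) :
    RELang fun (p : γ) w => Λ (g p) w :=
  re_comp h ((hg.comp Computable.fst).pair Computable.snd)

end RELang

/-- Assembling the base family of a grammar from finitely many r.e. languages. -/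
theorem re_base_of_list (Ls : List (σ × (π → List α → Prop))) (h : ∀ y ∈ Ls, RELang y.2) :
    REPred fun x : π × σ × List α => ∃ y ∈ Ls, y.1 = x.2.1 ∧ y.2 x.1 x.2.2 := by
  induction Ls with
  | nil => exact re_false.of_eq (fun x => by simp)
  | cons y Ls ih =>
    have h1 : REPred fun x : π × σ × List α => y.1 = x.2.1 ∧ y.2 x.1 x.2.2 := by
      refine re_and (re_eq (Computable.const y.1) (Computable.fst.comp Computable.snd)) ?_
      exact re_comp (h y List.mem_cons_self)
        (Computable.fst.pair (Computable.snd.comp Computable.snd))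
    exact (re_or h1 (ih (fun z hz => h z (List.mem_cons_of_mem _ hz)))).of_eq
      (fun x => by simp)

/-- The language of a sort of a grammar over finitely many r.e. base languages is r.e. -/
theorem der_relang (G : Gram σ α) (hth : Primrec G.th) (Ls : List (σ × (π → List α → Prop)))
    (h : ∀ y ∈ Ls, RELang y.2) (i : σ) :
    RELang fun p w => Der G (fun p i w => ∃ y ∈ Ls, y.1 = i ∧ y.2 p w) p i w :=
  re_comp (der_re G hth (re_base_of_list Ls h))
    (Computable.fst.pair ((Computable.const i).pair Computable.snd))

end Claimed.Agent.R152.RE
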